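import Vale.Agent.P088.R2.H380.INF.IS
import Vale.Agent.P088.R2.H269.INF.Ev

/-!
# P088, stage 3: sizes of the derivatives of the weight in the separable region

`comp_sz`: `|G^(i)| ≤ m b^(i-1)`, `‖D^i L‖ ≤ A r^(i-1)`, `r ≤ b` imply
`‖D^i (G ∘ L)‖ ≤ i! A^i m b^(i-1)`.
-/

open MeasureTheory Set Filter
open scoped ContDiff Topology Matrix

noncomputable section

namespace Vale.Agent.P088.R2.H380.E

open Vale.Agent.P088.R2.H961.GW Vale.Agent.P088.R2.H960.W Vale.Agent.P088.R2.H644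
open Vale.Agent.P088.R2.H551.E Vale.Agent.P088.LR Vale.Agent.P088.HY Vale.Agent.P088.R2.H475
open Vale.Agent.P088.R2.H168.INF Vale.Agent.P088.R2.H269.INF Vale.Agent.P088.R2.H31.EP
open Vale.Agent.P088.R2.H380.INF
open Vale.Agent.P088.R2.H404.INF (InfC evInf lvG l₀_eq gl_le DeepOk closed_deep deep_supp W_ret)

/-- Derivatives of a difference with a constant. -/
theorem nit_sub_const {E : Type*} [NormedAddCommGroup E] [NormedSpace ℝ E] (f : E → ℝ) (c : ℝ)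
    {j : ℕ} (hj : 1 ≤ j) (z : E) :
    ‖iteratedFDeriv ℝ j (fun z => f z - c) z‖ = ‖iteratedFDeriv ℝ j f z‖ := by
  obtain ⟨i, rfl⟩ : ∃ i, j = i + 1 := ⟨j - 1, by omega⟩
  rw [← norm_iteratedFDeriv_fderiv, ← norm_iteratedFDeriv_fderiv]
  congr 2
  funext w
  rw [fderiv_sub_const]

/-- **Composition.** -/
theorem comp_sz {E : Type*} [NormedAddCommGroup E] [NormedSpace ℝ E] {G : ℝ → ℝ} {L : E → ℝ}
    (hG : ContDiff ℝ ∞ G) (hL : ContDiff ℝ ∞ L) {z : E} {m b A r : ℝ} {k : ℕ} (hm : 0 ≤ m)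
    (hb : 0 < b) (hA : 1 ≤ A) (hr : 0 ≤ r) (hrb : r ≤ b)
    (g : ∀ i, 1 ≤ i → i ≤ k → |iteratedDeriv i G (L z)| ≤ m * b ^ (i - 1))
    (l : ∀ i, 1 ≤ i → i ≤ k → ‖iteratedFDeriv ℝ i L z‖ ≤ A * r ^ (i - 1)) {i : ℕ} (h1 : 1 ≤ i)
    (hk : i ≤ k) :
    ‖iteratedFDeriv ℝ i (fun z => G (L z)) z‖ ≤ i.factorial * A ^ i * m * b ^ (i - 1) := by
  have A0 : 0 ≤ A := by linarith
  set g' : ℝ → ℝ := fun s => G (b⁻¹ * s) - G (L z) with hg'
  set f' : E → ℝ := fun w => b * L w with hf'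
  have sg : ContDiff ℝ ∞ g' := (hG.comp (contDiff_const.mul contDiff_id)).sub contDiff_const
  have sf : ContDiff ℝ ∞ f' := contDiff_const.mul hL
  have ez : b⁻¹ * f' z = L z := by rw [hf']; field_simp
  have e1 : g' ∘ f' = fun w => G (L w) - G (L z) := by
    funext w
    simp only [hg', hf', Function.comp]
    congr 2
    field_simp
  have hC : ∀ j, j ≤ i → ‖iteratedFDeriv ℝ j g' (f' z)‖ ≤ m / b := by
    intro j hj
    rcases Nat.eq_zero_or_pos j with rfl | j0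
    · rw [norm_iteratedFDeriv_zero]
      simp only [hg', ez, sub_self, norm_zero]
      positivity
    · rw [hg', nit_sub_const _ _ j0, norm_iteratedFDeriv_eq_norm_iteratedDeriv,
        iteratedDeriv_comp_const_mul (hG.of_le (by exact_mod_cast le_top))]
      show ‖b⁻¹ ^ j * iteratedDeriv j G (b⁻¹ * f' z)‖ ≤ m / b
      rw [ez, Real.norm_eq_abs, abs_mul, abs_of_nonneg (by positivity : (0 : ℝ) ≤ b⁻¹ ^ j)]
      have h2 := mul_le_mul_of_nonneg_left (g j j0 (hj.trans hk)) (by positivity : 0 ≤ b⁻¹ ^ j)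
      refine h2.trans (le_of_eq ?_)
      obtain ⟨t, rfl⟩ : ∃ t, j = t + 1 := ⟨j - 1, by omega⟩
      have e3 : b⁻¹ ^ t * b ^ t = 1 := by rw [← mul_pow, inv_mul_cancel₀ hb.ne', one_pow]
      rw [Nat.add_sub_cancel, pow_succ]
      calc b⁻¹ ^ t * b⁻¹ * (m * b ^ t) = b⁻¹ ^ t * b ^ t * (m * b⁻¹) := by ring
        _ = m / b := by rw [e3, one_mul, div_eq_mul_inv]
  have hD : ∀ j, 1 ≤ j → j ≤ i → ‖iteratedFDeriv ℝ j f' z‖ ≤ (A * b) ^ j := by
    intro j j0 hj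
    have e2 : iteratedFDeriv ℝ j f' z = b • iteratedFDeriv ℝ j L z := by
      have := iteratedFDeriv_const_smul_apply' (𝕜 := ℝ) (a := b) (i := j) (f := L) (x := z)
        ((hL.of_le (by exact_mod_cast le_top)).contDiffAt)
      exact this
    rw [e2, norm_smul, Real.norm_eq_abs, abs_of_pos hb]
    obtain ⟨t, rfl⟩ : ∃ t, j = t + 1 := ⟨j - 1, by omega⟩
    have h2 := l (t + 1) j0 (hj.trans hk)
    rw [Nat.add_sub_cancel] at h2
    have h3 : r ^ t ≤ b ^ t := pow_le_pow_left₀ hr hrb t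
    have h4 : (1 : ℝ) ≤ A ^ t := one_le_pow₀ hA
    have h5 : A * r ^ t ≤ A ^ (t + 1) * b ^ t := by
      rw [pow_succ]
      calc A * r ^ t ≤ A * b ^ t := mul_le_mul_of_nonneg_left h3 A0
        _ = 1 * (A * b ^ t) := (one_mul _).symm
        _ ≤ A ^ t * (A * b ^ t) := mul_le_mul_of_nonneg_right h4 (by positivity)
        _ = _ := by ring
    calc b * ‖iteratedFDeriv ℝ (t + 1) L z‖ ≤ b * (A ^ (t + 1) * b ^ t) :=
          mul_le_mul_of_nonneg_left (h2.trans h5) hb.le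
      _ = (A * b) ^ (t + 1) := by rw [mul_pow]; ring
  have h6 := norm_iteratedFDeriv_comp_le (N := ∞) sg sf (n := i)
    (by exact_mod_cast le_top) z hC hD
  rw [e1, nit_sub_const _ _ h1] at h6
  refine h6.trans (le_of_eq ?_)
  obtain ⟨t, rfl⟩ : ∃ t, i = t + 1 := ⟨i - 1, by omega⟩
  rw [Nat.add_sub_cancel, mul_pow, pow_succ b]
  field_simp

variable {n : ℕ} {q : Cst} {d : Pk n} {C₁ : ℝ} {CL : ℝ → ℝ}

/-- Triangle inequality for the graded size. -/
theorem gm_add {R : ℝ} (hR : 0 < R) {f g : VV n → ℝ} (hf : ContDiff ℝ ∞ f)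
    (hg : ContDiff ℝ ∞ g) (j : ℕ) (z : VV n) :
    gm R (fun z => f z + g z) j z ≤ gm R f j z + gm R g j z := by
  unfold gm
  rw [← Finset.sum_add_distrib]
  refine Finset.sum_le_sum fun i _ => ?_
  have e : iteratedFDeriv ℝ (i + 1) (fun z => f z + g z) z =
      iteratedFDeriv ℝ (i + 1) f z + iteratedFDeriv ℝ (i + 1) g z := by
    have := iteratedFDeriv_add_apply (𝕜 := ℝ) (i := i + 1) (f := f) (g := g) (x := z)
      ((hf.of_le (by exact_mod_cast le_top)).contDiffAt)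
      ((hg.of_le (by exact_mod_cast le_top)).contDiffAt)
    exact this
  rw [e, ← add_mul]
  exact mul_le_mul_of_nonneg_right (norm_add_le _ _) (by positivity)

/-- The graded size from the sizes. -/
theorem gm_sz {R : ℝ} (hR : 0 < R) {f : VV n → ℝ} {z : VV n} {M b : ℝ} {k : ℕ} (hM : 0 ≤ M)
    (hb : R⁻¹ ≤ b) (h : ∀ i ≤ k, ‖iteratedFDeriv ℝ (i + 1) f z‖ ≤ M * b ^ i) {j : ℕ}
    (hj : j ≤ k) : gm R f j z ≤ (j + 1) * (M * b ^ j) := by
  have hi : 0 ≤ R⁻¹ := (inv_pos.2 hR).le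
  have b0 : 0 ≤ b := hi.trans hb
  unfold gm
  have h1 : ∀ i ∈ Finset.range (j + 1),
      ‖iteratedFDeriv ℝ (i + 1) f z‖ * R⁻¹ ^ (j - i) ≤ M * b ^ j := by
    intro i hi'
    have hi'' : i < j + 1 := Finset.mem_range.1 hi'
    calc ‖iteratedFDeriv ℝ (i + 1) f z‖ * R⁻¹ ^ (j - i) ≤ M * b ^ i * b ^ (j - i) :=
          mul_le_mul (h i (by omega)) (pow_le_pow_left₀ hi hb _) (by positivity) (by positivity)
      _ = M * b ^ j := by
          rw [mul_assoc, ← pow_add]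
          congr 2
          omega
  refine (Finset.sum_le_sum h1).trans (le_of_eq ?_)
  rw [Finset.sum_const, Finset.card_range, nsmul_eq_mul]
  push_cast
  ring

end Vale.Agent.P088.R2.H380.E
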