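import Vale.Agent.P088.R2.H380.E.Cmp

/-!
# P088, stage 3, EST': the cost of the leaf iS is small
-/

open MeasureTheory Set Filter
open scoped ContDiff Topology Matrix

noncomputable section

namespace Vale.Agent.P088.R2.H380.E

open Vale.Agent.P088.R2.H961.GW Vale.Agent.P088.R2.H960.W Vale.Agent.P088.R2.H644
open Vale.Agent.P088.R2.H551.E Vale.Agent.P088.LR Vale.Agent.P088.HY Vale.Agent.P088.R2.H475
open Vale.Agent.P088.R2.H168.INF Vale.Agent.P088.R2.H269.INF Vale.Agent.P088.R2.H31.EP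
open Vale.Agent.P088.R2.H380.INF
open Vale.Agent.P088.R2.H404.INF (InfC evInf lvG l₀_eq gl_le DeepOk closed_deep deep_supp W_ret)

variable {n : ℕ} {q : Cst} {d : Pk n} {C₁ : ℝ} {CL : ℝ → ℝ}

/-! ## One slot -/

section slot

variable {E : Type*} [NormedAddCommGroup E] [NormedSpace ℝ E] {σ₀ : Sl E (Fin n)}
  {W χ lam : E → ℝ} {z : E}

/-- The sum of the first derivatives. -/
theorem sum_le {P : ℝ} (hP : 0 ≤ P) {A : Fin n → ℝ} (h : ∑ i, A i ^ 2 ≤ n * P ^ 2) :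
    ∑ i, |A i| ≤ n * P := by
  have h1 := sum_abs_sq A
  rw [Fintype.card_fin] at h1
  have h2 : (n : ℝ) * ∑ i, A i ^ 2 ≤ n * (n * P ^ 2) := mul_le_mul_of_nonneg_left h (by positivity)
  refine abs_le_of_sq_le_sq' ?_ (by positivity) |>.2
  calc (∑ i, |A i|) ^ 2 ≤ n * (n * P ^ 2) := h1.trans h2
    _ = (n * P) ^ 2 := by ring

/-- **The cost in one slot.** -/
theorem cw_le {w₁ w₂ w₃ P : ℝ} (bS : ∀ i j, |σ₀.s i j z| ≤ 2)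
    (bD : ∀ k i j, |σ₀.D k (σ₀.s i j) z| ≤ 1) (bη : ∀ i, σ₀.η i z = 0)
    (b1 : ∀ i, |σ₀.D i W z| ≤ w₁) (b2 : ∀ i j, |σ₀.D i (σ₀.D j W) z| ≤ w₂)
    (b3 : ∀ i, |σ₀.D i (σ₀.Λ W) z| ≤ w₃) (h1 : 0 ≤ w₁) (h2 : 0 ≤ w₂) (h3 : 0 ≤ w₃)
    (hP : 0 ≤ P) (hZ : ∑ i, σ₀.D i χ z ^ 2 ≤ n * P ^ 2) (hχ : |χ z| ≤ 1) (hl : 0 ≤ lam z) :
    cw σ₀ W χ lam z ≤ 3 * lam z * (2 * (n * P) ^ 2) +
      32 * ((n : ℝ) ^ 3 * (4 * w₂ + 3 * w₁) * (n * P ^ 2)) + 8 * (2 * n * w₃ * (n * P)) := by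
  have hs := sum_le hP hZ
  have s0 : 0 ≤ ∑ i, |σ₀.D i χ z| := Finset.sum_nonneg fun _ _ => abs_nonneg _
  have k1 : σ₀.Γ χ χ z ≤ 2 * (n * P) ^ 2 := by
    unfold Sl.Γ
    calc ∑ i, ∑ j, σ₀.s i j z * σ₀.D i χ z * σ₀.D j χ z ≤
          ∑ i, ∑ j, 2 * (|σ₀.D i χ z| * |σ₀.D j χ z|) := by
          refine Finset.sum_le_sum fun i _ => Finset.sum_le_sum fun j _ => ?_
          refine (le_abs_self _).trans ?_
          rw [abs_mul, abs_mul, mul_assoc]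
          exact mul_le_mul_of_nonneg_right (bS i j) (by positivity)
      _ = 2 * (∑ i, |σ₀.D i χ z|) ^ 2 := by
          rw [pow_two, Finset.sum_mul_sum, Finset.mul_sum]
          refine Finset.sum_congr rfl fun i _ => ?_
          rw [Finset.mul_sum]
      _ ≤ 2 * (n * P) ^ 2 := mul_le_mul_of_nonneg_left (pow_le_pow_left₀ s0 hs 2) (by norm_num)
  have k2 := HH_le bS bD bη b1 b2 (by norm_num) zero_le_one h1 h2 fun i => σ₀.D i χ z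
  rw [Fintype.card_fin] at k2
  have k3 : HH σ₀ W z (fun i => σ₀.D i χ z) ≤ (n : ℝ) ^ 3 * (4 * w₂ + 3 * w₁) * (n * P ^ 2) := by
    refine (le_abs_self _).trans (k2.trans ?_)
    have e : (n : ℝ) ^ 3 * (2 ^ 2 * w₂ + 3 / 2 * (2 * 1 * w₁)) =
        (n : ℝ) ^ 3 * (4 * w₂ + 3 * w₁) := by ring
    rw [e]
    exact mul_le_mul_of_nonneg_left hZ (by positivity)
  have k4 : |χ z * σ₀.Γ χ (σ₀.Λ W) z| ≤ 2 * n * w₃ * (n * P) := by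
    rw [abs_mul]
    have a1 : |σ₀.Γ χ (σ₀.Λ W) z| ≤ 2 * n * w₃ * (n * P) := by
      unfold Sl.Γ
      refine (Finset.abs_sum_le_sum_abs _ _).trans ((Finset.sum_le_sum fun i _ =>
        Finset.abs_sum_le_sum_abs _ _).trans ?_)
      calc ∑ i, ∑ j, |σ₀.s i j z * σ₀.D i χ z * σ₀.D j (σ₀.Λ W) z| ≤
            ∑ i, ∑ _j : Fin n, 2 * |σ₀.D i χ z| * w₃ := by
            refine Finset.sum_le_sum fun i _ => Finset.sum_le_sum fun j _ => ?_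
            rw [abs_mul, abs_mul]
            exact mul_le_mul (mul_le_mul_of_nonneg_right (bS i j) (abs_nonneg _)) (b3 j)
              (abs_nonneg _) (by positivity)
        _ = 2 * n * w₃ * ∑ i, |σ₀.D i χ z| := by
            rw [Finset.mul_sum]
            refine Finset.sum_congr rfl fun i _ => ?_
            rw [Finset.sum_const, Finset.card_univ, Fintype.card_fin, nsmul_eq_mul]
            ring
        _ ≤ 2 * n * w₃ * (n * P) := mul_le_mul_of_nonneg_left hs (by positivity)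
    calc |χ z| * |σ₀.Γ χ (σ₀.Λ W) z| ≤ 1 * |σ₀.Γ χ (σ₀.Λ W) z| :=
          mul_le_mul_of_nonneg_right hχ (abs_nonneg _)
      _ ≤ _ := by rw [one_mul]; exact a1
  have k5 : 3 * lam z * σ₀.Γ χ χ z ≤ 3 * lam z * (2 * (n * P) ^ 2) :=
    mul_le_mul_of_nonneg_left k1 (by positivity)
  unfold cw
  linarith

end slot

/-! ## Numbers -/

/-- The conditions. -/
structure NC (n : ℕ) (K P₀ e ε : ℝ) (q : Cst) : Prop where
  K0 : 0 ≤ K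
  P0 : 0 ≤ P₀
  ε0 : 0 < ε
  e0 : 0 < e
  e1 : e ≤ 1
  c1 : 192 * ((n : ℝ) ^ 2 * K * P₀ * e) ≤ ε * q.σ ^ 2
  c2 : 192 * ((n : ℝ) ^ 2 * K * P₀) * q.R⁻¹ ≤ ε * q.σ ^ 2
  c3 : 1344 * ((n : ℝ) ^ 4 * K * P₀ ^ 2) ≤ ε * q.σ ^ 2 * q.M₀
  c4 : 768 * ((n : ℝ) ^ 4 * K * P₀ ^ 2) * √q.R⁻¹ ≤ ε * q.σ ^ 2
  c5 : 36 / 100 * ((n : ℝ) ^ 2 * P₀ ^ 2) * q.R⁻¹ ≤ ε * q.σ

theorem nA {σ u P m ε N : ℝ} (hσ : 0 < σ) (u0 : 0 < u) (m1 : 1 ≤ m) (ε0 : 0 < ε)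
    (c5 : 36 / 100 * (N ^ 2 * P ^ 2) * u ≤ ε * σ) :
    3 * (1 / 100 * (σ * u) * m) * (2 * (N * (P * u)) ^ 2) ≤
      1 / 6 * (ε * ((σ * u) ^ 2 * m ^ 2)) := by
  have m0 : 0 ≤ m := by linarith
  have x1 := mul_le_mul_of_nonneg_right c5 (by positivity : 0 ≤ σ * m * u ^ 2)
  have x2 : ε * σ * (σ * m * u ^ 2) ≤ ε * ((σ * u) ^ 2 * m ^ 2) := by
    have h : m ≤ m ^ 2 := by nlinarith
    calc ε * σ * (σ * m * u ^ 2) = ε * (σ * u) ^ 2 * m := by ring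
      _ ≤ ε * (σ * u) ^ 2 * m ^ 2 := mul_le_mul_of_nonneg_left h (by positivity)
      _ = _ := by ring
  have x3 : 3 * (1 / 100 * (σ * u) * m) * (2 * (N * (P * u)) ^ 2) =
      1 / 6 * (36 / 100 * (N ^ 2 * P ^ 2) * u * (σ * m * u ^ 2)) := by ring
  rw [x3]
  linarith

theorem nB {σ u v t P m M b ε w : ℝ} (_hσ : 0 < σ) (u0 : 0 < u) (u1 : u ≤ 1) (m0 : 0 ≤ m)
    (hm : M ≤ m) (ε0 : 0 < ε) (w0 : 0 ≤ w) (hb : b = t + u) (tv : t ≤ m * v)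
    (c3 : 1344 * w ≤ ε * σ ^ 2 * M) (c4 : 768 * w * v ≤ ε * σ ^ 2)
    (_hP : 0 ≤ P) :
    32 * w * (m * u ^ 2) * (4 * b + 3) ≤ 2 / 6 * (ε * ((σ * u) ^ 2 * m ^ 2)) := by
  have x1 : 4 * b + 3 ≤ 4 * (m * v) + 7 := by
    rw [hb]
    linarith
  have x2 := mul_le_mul_of_nonneg_left x1 (by positivity : 0 ≤ 32 * w * (m * u ^ 2))
  have x3 := mul_le_mul_of_nonneg_right c3 (by positivity : 0 ≤ m * u ^ 2)
  have x4 : ε * σ ^ 2 * M * (m * u ^ 2) ≤ ε * σ ^ 2 * m * (m * u ^ 2) :=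
    mul_le_mul_of_nonneg_right (mul_le_mul_of_nonneg_left hm (by positivity)) (by positivity)
  have x5 := mul_le_mul_of_nonneg_right c4 (by positivity : 0 ≤ m ^ 2 * u ^ 2)
  have y1 : 32 * w * (m * u ^ 2) * (4 * (m * v) + 7) =
      1 / 6 * (768 * w * v * (m ^ 2 * u ^ 2)) + 1 / 6 * (1344 * w * (m * u ^ 2)) := by ring
  have y2 : ε * σ ^ 2 * m * (m * u ^ 2) = ε * ((σ * u) ^ 2 * m ^ 2) := by ring
  have y3 : ε * σ ^ 2 * (m ^ 2 * u ^ 2) = ε * ((σ * u) ^ 2 * m ^ 2) := by ring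
  rw [y1] at x2
  rw [y2] at x4
  rw [y3] at x5
  linarith

theorem nC {σ u e m b ε w : ℝ} (u0 : 0 < u) (m1 : 1 ≤ m) (ε0 : 0 < ε)
    (w0 : 0 ≤ w) (b2 : b ^ 2 ≤ 2 * (e * m * u) + 2 * u ^ 2) (c1 : 192 * (w * e) ≤ ε * σ ^ 2)
    (c2 : 192 * w * u ≤ ε * σ ^ 2) :
    16 * w * (m * u) * b ^ 2 ≤ 2 / 6 * (ε * ((σ * u) ^ 2 * m ^ 2)) := by
  have m0 : 0 ≤ m := by linarith
  have x2 := mul_le_mul_of_nonneg_left b2 (by positivity : 0 ≤ 16 * w * (m * u))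
  have x3 := mul_le_mul_of_nonneg_right c1 (by positivity : 0 ≤ m ^ 2 * u ^ 2)
  have x4 := mul_le_mul_of_nonneg_right c2 (by positivity : 0 ≤ m * u ^ 2)
  have x5 : ε * σ ^ 2 * (m * u ^ 2) ≤ ε * σ ^ 2 * (m ^ 2 * u ^ 2) := by
    have h : m ≤ m ^ 2 := by nlinarith
    exact mul_le_mul_of_nonneg_left (mul_le_mul_of_nonneg_right h (by positivity))
      (by positivity)
  have y1 : 16 * w * (m * u) * (2 * (e * m * u) + 2 * u ^ 2) =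
      1 / 6 * (192 * (w * e) * (m ^ 2 * u ^ 2)) + 1 / 6 * (192 * w * u * (m * u ^ 2)) := by ring
  have y3 : ε * σ ^ 2 * (m ^ 2 * u ^ 2) = ε * ((σ * u) ^ 2 * m ^ 2) := by ring
  rw [y1] at x2
  rw [y3] at x3 x5
  linarith

/-- The cost against the payer. -/
theorem num_cost {K P₀ e ε m b : ℝ} (c : NC n K P₀ e ε q) (hσ : 0 < q.σ) (hR : 1 ≤ q.R)
    (hM : 1 ≤ q.M₀) (hm : q.M₀ ≤ m) (hb : b = √(e * m / q.R) + q.R⁻¹) :
    3 * (1 / 100 * (q.σ / q.R) * m) * (2 * (n * (P₀ / q.R)) ^ 2) +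
      32 * ((n : ℝ) ^ 3 * (4 * (K * m * b) + 3 * (K * m)) * (n * (P₀ / q.R) ^ 2)) +
      8 * (2 * n * (K * m * b ^ 2) * (n * (P₀ / q.R))) ≤
      ε * ((q.σ / q.R) ^ 2 * m ^ 2) := by
  have R0 : 0 < q.R := by linarith
  have m1 : 1 ≤ m := hM.trans hm
  have m0 : 0 ≤ m := by linarith
  have u0 : 0 < q.R⁻¹ := inv_pos.2 R0
  have u1 : q.R⁻¹ ≤ 1 := inv_le_one_of_one_le₀ hR
  obtain ⟨K0, P0, ε0, e0, e1, c1, c2, c3, c4, c5⟩ := c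
  have n0 : (0 : ℝ) ≤ n := Nat.cast_nonneg n
  rw [div_eq_mul_inv q.σ, div_eq_mul_inv P₀]
  rw [div_eq_mul_inv] at hb
  generalize q.R⁻¹ = u at *
  have hem : 0 ≤ e * m * u := by positivity
  have t2 : √(e * m * u) ^ 2 = e * m * u := Real.sq_sqrt hem
  have t0 : 0 ≤ √(e * m * u) := Real.sqrt_nonneg _
  have v2 : √u ^ 2 = u := Real.sq_sqrt u0.le
  have v0 : 0 ≤ √u := Real.sqrt_nonneg _
  have tv : √(e * m * u) ≤ m * √u := by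
    refine abs_le_of_sq_le_sq' ?_ (by positivity) |>.2
    rw [t2, mul_pow, v2]
    refine mul_le_mul_of_nonneg_right ?_ u0.le
    calc e * m ≤ 1 * m := mul_le_mul_of_nonneg_right e1 m0
      _ ≤ m * m := mul_le_mul_of_nonneg_right m1 m0
      _ = m ^ 2 := by ring
  have b2 : b ^ 2 ≤ 2 * (e * m * u) + 2 * u ^ 2 := by
    rw [hb]
    nlinarith [sq_nonneg (√(e * m * u) - u)]
  have A := nA (N := (n : ℝ)) hσ u0 m1 ε0 c5
  have B := nB hσ u0 u1 m0 hm ε0 (by positivity) hb tv c3 c4 P0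
  have C := nC u0 m1 ε0 (by positivity) b2 c1 c2
  have B' : 32 * ((n : ℝ) ^ 3 * (4 * (K * m * b) + 3 * (K * m)) * (n * (P₀ * u) ^ 2)) =
      32 * ((n : ℝ) ^ 4 * K * P₀ ^ 2) * (m * u ^ 2) * (4 * b + 3) := by ring
  have C' : 8 * (2 * n * (K * m * b ^ 2) * (n * (P₀ * u))) =
      16 * ((n : ℝ) ^ 2 * K * P₀) * (m * u) * b ^ 2 := by ring
  have Z0 : 0 ≤ ε * ((q.σ * u) ^ 2 * m ^ 2) := by positivity
  rw [B', C']
  linarith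

end Vale.Agent.P088.R2.H380.E
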