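import Vale.Agent.P088.R2.H380.E.SzS
import Vale.Agent.P088.R2.H871.E.Gf

/-!
# P088, stage 3, EST': payments where `tinf > 0`: the leaf `iS`

`pbI_iS`: the leaf pays; `cbI_iS`: its cost is small.
-/

open MeasureTheory Set Filter
open scoped ContDiff Topology Matrix

noncomputable section

namespace Vale.Agent.P088.R2.H380.E

open Vale.Agent.P088.R2.H961.GW Vale.Agent.P088.R2.H960.W Vale.Agent.P088.R2.H644
open Vale.Agent.P088.R2.H551.E Vale.Agent.P088.LR Vale.Agent.P088.HY Vale.Agent.P088.R2.H475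
open Vale.Agent.P088.R2.H168.INF Vale.Agent.P088.R2.H269.INF Vale.Agent.P088.R2.H31.EP
open Vale.Agent.P088.R2.H380.INF
open Vale.Agent.P088.R2.H867.EP (Zo)
open Vale.Agent.P088.R2.H455.E (Lc Mz coz SmE)
open Vale.Agent.P088.R2.H871.E (PB CB PbI CbI In3 inf_b Z_le BF_one)
open Vale.Agent.P088.R2.H404.INF (InfC evInf lvG l₀_eq gl_le DeepOk closed_deep deep_supp W_ret)

variable {n : ℕ} {q : Cst} {d : Pk n} {C₁ : ℝ} {CL : ℝ → ℝ} {z : VV n}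

/-- The slope at deep pairs. -/
def cM (q : Cst) : ℝ := (1 + |q.ph.Ct 0|) * q.ph.Cb

theorem ev_cM : EvC fun q => cM q ≤ q.M₀ :=
  EvC.at_M₀ (fun q t => cM q ≤ t) fun q => eventually_ge_atTop _

theorem N_deep (h : PkOk q d) (hI : InfC q) (hc : cM q ≤ q.M₀) (h0 : 0 ≤ cM q) {u : ℝ}
    (hu : u ≤ 0) : deriv d.Φ u ≤ 2 * q.M₀ := by
  have h1 := H673.INF.phi_bd h hI.R0.le hu (H404.INF.l₀_nonneg hI h) 0
  rw [zero_add, H673.INF.deriv_sub' h.top.sm] at h1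
  have h2 : Real.exp u ≤ 1 := Real.exp_le_one_iff.2 hu
  have h3 : (1 + |q.ph.Ct (0 - 1)|) * q.ph.Cb * Real.exp u ≤ cM q * 1 :=
    mul_le_mul_of_nonneg_left h2 h0
  have h4 := (abs_le.1 (h1.trans h3)).2
  linarith

/-- The rates at deep pairs. -/
theorem nx_deep (h : PkOk q d) (hI : InfC q) (hc : cM q ≤ q.M₀) (h0 : 0 ≤ cM q)
    (hz : DeepOk q.σ q.R (H475.gg n q.σ) d.l z) :
    (INF.nX q d z ≤ H871.E.nx q d z ∧ H871.E.nx q d z ≤ 2 * INF.nX q d z) ∧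
      (INF.nY q d z ≤ H871.E.ny q d z ∧ H871.E.ny q d z ≤ 2 * INF.nY q d z) := by
  have hR := hI.R0
  have hu : d.u0 z ≤ 0 := by
    have h1 := hz.f
    have h2 : d.u0 z = d.l z.1 + d.l z.2 := rfl
    have h3 : 0 < q.R / q.σ := div_pos hR hI.σ0
    have h4 := Real.sqrt_nonneg (q.R ^ 2 + HY.sq (z.1 - z.2))
    rw [h2]
    linarith
  have h1 := N_deep h hI hc h0 hu
  have h2 := h.N_ge (d.u0 z)
  have h3 := h.Θd0 hR (d.l z.1)
  have h4 := h.Θd0 hR (d.l z.2)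
  unfold INF.nX INF.nY H871.E.nx H871.E.ny
  refine ⟨⟨?_, ?_⟩, ?_, ?_⟩ <;> linarith

/-- **The leaf iS pays.** -/
theorem pbI_iS (hn : 1 ≤ n) {L : Lc n} (hM : L.FM .iS = fun q d => MiS q d) : PbI L .iS := by
  obtain ⟨C₁, CL, h1, h2, c⟩ := exists_cns hn
  refine ⟨fun _ => 1 / 10 ^ 5, ⟨fun _ => rfl, fun _ => by norm_num⟩, ?_⟩
  have hcb : EvC fun q => 0 ≤ cM q := by
    refine EvC.good.mono fun q g => ?_
    have := g.1.1.Cb0
    unfold cM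
    positivity
  refine (((evSCo n h1 h2).and ev_cM).and hcb).mono ?_
  rintro q ⟨⟨co, hc⟩, h0⟩ d h z - hk
  have hI := co.inf
  have hR := hI.R0
  have hσ := hI.σ0
  have e1 : q.ε * n ≤ 1 / 2 := by linarith [co.ε1]
  have hz := deep_supp hI h (subset_tsupport _ (Function.mem_support.2 hk))
  obtain ⟨⟨a1, a2⟩, b1, b2⟩ := nx_deep h hI hc h0 hz
  have m1 := mt₁ le_rfl hR h.rg
  have m2 := mt₂ le_rfl hR h.rg
  have F1 : 0 ≤ d.sx.F (d.W q) z := m1.s0 (pj_x _) co.ε0 e1 z _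
  have F2 : 0 ≤ d.sy.F (d.W q) z := m2.s0 (pj_y _) co.ε0 e1 z _
  have hs : 0 < q.σ / q.R := div_pos hσ hR
  have n1 : 0 ≤ INF.nX q d z := by
    have := h.Θd0 hR (d.l z.1)
    have := co.M1
    unfold INF.nX
    linarith
  have n2 : 0 ≤ INF.nY q d z := by
    have := h.Θd0 hR (d.l z.2)
    have := co.M1
    unfold INF.nY
    linarith
  have e : Mz L q d .iS = MiS q d := by
    show L.FM .iS q d = _
    rw [hM]
  rw [e]
  have key : ∀ {m k F : ℝ}, 0 ≤ m → m ≤ k → k ≤ 2 * m → 0 ≤ F →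
      1 / 10 ^ 5 * (q.σ / q.R * k) ≤ 1 / 100 * (q.σ / q.R) * m / 6 ∧
      1 / 10 ^ 5 * (q.σ / q.R * (k * F + q.σ / q.R * k ^ 2)) ≤
        1 / 100 * (q.σ / q.R) * m * F / 2 + 1 / 10 ^ 4 * ((q.σ / q.R) * m) ^ 2 := by
    intro m k F hm hmk hk hF
    generalize q.σ / q.R = s at *
    have x1 : s * k ≤ s * (2 * m) := mul_le_mul_of_nonneg_left hk hs.le
    have x0 : 0 ≤ s * m := mul_nonneg hs.le hm
    constructor
    · linarith
    · have x2 : s * k * F ≤ s * (2 * m) * F := mul_le_mul_of_nonneg_right x1 hF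
      have x3 : (s * k) ^ 2 ≤ (s * (2 * m)) ^ 2 :=
        pow_le_pow_left₀ (mul_nonneg hs.le (hm.trans hmk)) x1 2
      have x4 : 0 ≤ s * m * F := mul_nonneg x0 hF
      have x5 : 0 ≤ (s * m) ^ 2 := sq_nonneg _
      have y1 : 1 / 10 ^ 5 * (s * (k * F + s * k ^ 2)) =
        1 / 10 ^ 5 * (s * k * F) + 1 / 10 ^ 5 * (s * k) ^ 2 := by ring
      rw [y1]
      nlinarith
  obtain ⟨x1, x2⟩ := key n1 a1 a2 F1
  obtain ⟨y1, y2⟩ := key n2 b1 b2 F2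
  exact ⟨zero_le_one, x1, y1, le_rfl, x2, y2, le_rfl, le_rfl⟩

/-! ## The cost -/

/-- The size of the derivatives of the cut-off is `P0 / R`. -/
def P0 (q : Cst) : ℝ := 7 * BF * (300 / q.κ₁)

/-- The parameter of the sizes of `Θ`. -/
def eq' (n : ℕ) (C₁ : ℝ) (CL : ℝ → ℝ) (ε : Cst → ℝ) (q : Cst) : ℝ :=
  min 1 (ε q * q.σ ^ 2 / (192 * ((n : ℝ) ^ 2 * Kq C₁ CL q * |P0 q|) + 1))

theorem Kq_nn (hC : 1 ≤ C₁) (hL : ∀ s, 1 ≤ CL s) (q : Cst) : 0 ≤ Kq C₁ CL q := by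
  have := hL q.σ
  unfold Kq
  positivity

theorem nb_eq {ε : Cst → ℝ} (hε : SmE ε) : NB_c' (eq' n C₁ CL ε) := fun q => by
  have h1 := hε.1 q
  show min 1 (ε q.b_c' * q.σ ^ 2 / (192 * ((n : ℝ) ^ 2 * Kq C₁ CL q * |P0 q|) + 1)) = _
  rw [h1]
  rfl

theorem ev_eq (hC : 1 ≤ C₁) (hL : ∀ s, 1 ≤ CL s) {ε : Cst → ℝ} (hε : SmE ε) :
    EvC fun q => 0 < eq' n C₁ CL ε q ∧ eq' n C₁ CL ε q ≤ 1 := by
  refine EvC.pos.mono ?_
  rintro q ⟨-, ⟨-, hσ, -⟩, -⟩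
  have h1 := hε.2 q
  have h2 := Kq_nn hC hL q
  exact ⟨lt_min one_pos (by positivity), min_le_left _ _⟩

/-- **The conditions on the numbers.** -/
theorem evNC (n : ℕ) (hC : 1 ≤ C₁) (hL : ∀ s, 1 ≤ CL s) {ε : Cst → ℝ} (hε : SmE ε) :
    EvC fun q => NC n (Kq C₁ CL q) (P0 q) (eq' n C₁ CL ε q) (ε q) q := by
  have nbR : NB_R ε := fun q => (hε.1 q.b_R).symm.trans (hε.1 q)
  have nbM : NB_M₀ ε := fun q => (hε.1 q.b_M₀).symm.trans (hε.1 q)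
  have a1 : EvC fun q => 0 < q.σ →
      (192 * ((n : ℝ) ^ 2 * Kq C₁ CL q * P0 q) * q.R⁻¹ ≤ ε q * q.σ ^ 2 ∧
      768 * ((n : ℝ) ^ 4 * Kq C₁ CL q * P0 q ^ 2) * √q.R⁻¹ ≤ ε q * q.σ ^ 2 ∧
      36 / 100 * ((n : ℝ) ^ 2 * P0 q ^ 2) * q.R⁻¹ ≤ ε q * q.σ) := by
    have h := EvC.at_R (fun q t => 0 < q.σ →
      (192 * ((n : ℝ) ^ 2 * Kq C₁ CL q * P0 q) * t⁻¹ ≤ ε q * q.σ ^ 2 ∧
      768 * ((n : ℝ) ^ 4 * Kq C₁ CL q * P0 q ^ 2) * √t⁻¹ ≤ ε q * q.σ ^ 2 ∧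
      36 / 100 * ((n : ℝ) ^ 2 * P0 q ^ 2) * t⁻¹ ≤ ε q * q.σ)) fun q => by
      by_cases hσ : 0 < q.σ
      swap
      · exact Eventually.of_forall fun t h => absurd h hσ
      have e0 := hε.2 q
      have t1 := (tendsto_inv_atTop_zero (𝕜 := ℝ)).const_mul
        (192 * ((n : ℝ) ^ 2 * Kq C₁ CL q * P0 q))
      have t3 := (tendsto_inv_atTop_zero (𝕜 := ℝ)).const_mul
        (36 / 100 * ((n : ℝ) ^ 2 * P0 q ^ 2))
      have t2 : Tendsto (fun t : ℝ => √t⁻¹) atTop (𝓝 0) := by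
        have := (Real.continuous_sqrt.tendsto 0).comp (tendsto_inv_atTop_zero (𝕜 := ℝ))
        rwa [Real.sqrt_zero] at this
      have t2' := t2.const_mul (768 * ((n : ℝ) ^ 4 * Kq C₁ CL q * P0 q ^ 2))
      rw [mul_zero] at t1 t3 t2'
      filter_upwards [ev_le t1 (δ := ε q * q.σ ^ 2) (by positivity),
        ev_le t2' (δ := ε q * q.σ ^ 2) (by positivity),
        ev_le t3 (δ := ε q * q.σ) (by positivity)] with t x1 x2 x3 _
      exact ⟨x1, x2, x3⟩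
    refine h.mono fun q hq => ?_
    have := nbR q
    simp only [this] at hq
    exact hq
  have a2 : EvC fun q => 0 < q.σ →
      1344 * ((n : ℝ) ^ 4 * Kq C₁ CL q * P0 q ^ 2) ≤ ε q * q.σ ^ 2 * q.M₀ := by
    have h := EvC.at_M₀ (fun q t => 0 < q.σ →
      1344 * ((n : ℝ) ^ 4 * Kq C₁ CL q * P0 q ^ 2) ≤ ε q * q.σ ^ 2 * t) fun q => by
      by_cases hσ : 0 < q.σ
      swap
      · exact Eventually.of_forall fun t h => absurd h hσ
      have e0 := hε.2 q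
      have e1 : 0 < ε q * q.σ ^ 2 := by positivity
      filter_upwards [eventually_ge_atTop
        (1344 * ((n : ℝ) ^ 4 * Kq C₁ CL q * P0 q ^ 2) / (ε q * q.σ ^ 2))] with t ht _
      rw [div_le_iff₀ e1] at ht
      linarith
    refine h.mono fun q hq => ?_
    have := nbM q
    simp only [this] at hq
    exact hq
  refine (((a1.and a2).and EvC.pos).and (ev_eq (n := n) hC hL hε)).mono ?_
  rintro q ⟨⟨⟨a1, a2⟩, -, ⟨hκ, hσ, -⟩, -⟩, e0, e1⟩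
  obtain ⟨b1, b2, b3⟩ := a1 hσ
  have K0 := Kq_nn hC hL q
  have BF1 := BF_one
  have hP : 0 ≤ P0 q := by
    unfold P0
    positivity
  have ε0 := hε.2 q
  refine ⟨K0, hP, ε0, e0, e1, ?_, b1, a2 hσ, b2, b3⟩
  have h1 : eq' n C₁ CL ε q ≤ ε q * q.σ ^ 2 / (192 * ((n : ℝ) ^ 2 * Kq C₁ CL q * |P0 q|) + 1) :=
    min_le_right _ _
  rw [abs_of_nonneg hP] at h1
  have w0 : 0 ≤ 192 * ((n : ℝ) ^ 2 * Kq C₁ CL q * P0 q) := by positivity
  rw [le_div_iff₀ (by positivity)] at h1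
  linarith

/-- **The cost of the leaf iS.** -/
theorem cbI_iS (hn : 1 ≤ n) {L : Lc n}
    (hC : L.FC .iS = fun q d => CiS (d.ch q .iS) q d) : CbI L .iS := by
  obtain ⟨C₁, CL, h1, h2, c⟩ := exists_cns hn
  intro ε hε
  refine ⟨fun _ => 1, ⟨fun _ => rfl, fun _ => one_pos⟩, fun e _ _ => ?_⟩
  have hcb : EvC fun q => 0 ≤ cM q := by
    refine EvC.good.mono fun q g => ?_
    have := g.1.1.Cb0
    unfold cM
    positivity
  refine (((evSCo n h1 h2).and (ev_cM.and hcb)).and (((ev_scT (nb_eq (n := n) hε)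
    (ev_eq h1 h2 hε)).and (evNC n h1 h2 hε)).and ((H673.INF.rowRho n).and
      (EvC.litSm n)))).mono ?_
  rintro q ⟨⟨co, hc, h0⟩, ⟨sT, nc⟩, hr, hs⟩ d h z - hk
  have hI := co.inf
  have hR := hI.R0
  have hR1 := hI.R1
  have hσ := hI.σ0
  have hn' : (1 : ℝ) ≤ n := by exact_mod_cast hn
  have e1 : q.ε * n ≤ 1 / 2 := by linarith [co.ε1]
  have he1 : q.ε ≤ 1 := by nlinarith [co.ε1, co.ε0]
  have hε' : n * q.ε ≤ 1 / 2 := by linarith [co.ε1, mul_comm (n : ℝ) q.ε]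
  have hz := deep_supp hI h (subset_tsupport _ (Function.mem_support.2 hk))
  obtain ⟨⟨a1, a2⟩, b1, b2⟩ := nx_deep h hI hc h0 hz
  have m1 := mt₁ le_rfl hR h.rg
  have m2 := mt₂ le_rfl hR h.rg
  have F1 : 0 ≤ d.sx.F (d.W q) z := m1.s0 (pj_x _) co.ε0 e1 z _
  have F2 : 0 ≤ d.sy.F (d.W q) z := m2.s0 (pj_y _) co.ε0 e1 z _
  have hs' : 0 < q.σ / q.R := div_pos hσ hR
  have n1 : q.M₀ ≤ INF.nX q d z := by
    have := h.Θd0 hR (d.l z.1)
    unfold INF.nX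
    linarith
  have n2 : q.M₀ ≤ INF.nY q d z := by
    have := h.Θd0 hR (d.l z.2)
    unfold INF.nY
    linarith
  have M1 := co.M1
  have yx := syx hn c co h (hr d h) hz
  have yy := syy hn c co h (hr d h) hz
  have S := sb5S c hR1 he1 hε' h z
  have hL1 : 1 ≤ CL q.σ := h2 q.σ
  have g1 := (gl_le hI h).1 hz.g1
  have g2 := (gl_le hI h).1 hz.g2
  have hx : z.1 ∈ Bw n q.σ q.R := by
    refine Bw_of (kap := d.kap) (Gs := d.Gs) hσ hI.σ1 hR ?_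
    rw [← h.lev.lit, ← l₀_eq]
    linarith
  have hy : z.2 ∈ Bw n q.σ q.R := by
    refine Bw_of (kap := d.kap) (Gs := d.Gs) hσ hI.σ1 hR ?_
    rw [← h.lev.lit, ← l₀_eq]
    linarith
  have lx : ∀ i, 1 ≤ i → i ≤ 3 → ‖iteratedFDeriv ℝ i (fun z : VV n => d.l z.1) z‖ ≤
      CL q.σ * q.R⁻¹ ^ (i - 1) := by
    intro i i1 i3
    obtain ⟨t, rfl⟩ : ∃ t, i = t + 1 := ⟨i - 1, by omega⟩
    rw [Nat.add_sub_cancel]
    refine (nit_fst h.lev.sm (t + 1) z).trans ?_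
    rw [h.lev.lit]
    exact c.lv q.σ q.R d.kap d.Gs hσ hI.σ1 hR z.1 hx t (by omega)
  have ly : ∀ i, 1 ≤ i → i ≤ 3 → ‖iteratedFDeriv ℝ i (fun z : VV n => d.l z.2) z‖ ≤
      CL q.σ * q.R⁻¹ ^ (i - 1) := by
    intro i i1 i3
    obtain ⟨t, rfl⟩ : ∃ t, i = t + 1 := ⟨i - 1, by omega⟩
    rw [Nat.add_sub_cancel]
    refine (nit_snd h.lev.sm (t + 1) z).trans ?_
    rw [h.lev.lit]
    exact c.lv q.σ q.R d.kap d.Gs hσ hI.σ1 hR z.2 hy t (by omega)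
  have sr := rhS_sm h hε'
  have hρ : ∀ j, 1 ≤ j → j ≤ 4 → ‖iteratedFDeriv ℝ j (rhS q d) z‖ ≤ q.R⁻¹ ^ 8 :=
    fun j j1 j4 => rhS_bd hI h (hr d h) hz j1 j4
  have gx : ∀ j ≤ 2, C₁ * gm q.R (fun z => rhS q d z + TT q d (d.l z.1)) j z ≤
      Kq C₁ CL q * INF.nX q d z * bq q (eq' n C₁ CL ε q) (INF.nX q d z) ^ j := by
    intro j hj
    have := mul_le_mul_of_nonneg_left (gm_slot hσ hR1 M1 h sT (π := Prod.fst) contDiff_fst hL1
      lx sr hρ hj) (by linarith : 0 ≤ C₁)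
    refine this.trans (le_of_eq ?_)
    show C₁ * (22 * CL q.σ ^ 3 * (INF.nX q d z * bq q (eq' n C₁ CL ε q) (INF.nX q d z) ^ j)) = _
    unfold Kq
    ring
  have gy : ∀ j ≤ 2, C₁ * gm q.R (fun z => rhS q d z + TT q d (d.l z.2)) j z ≤
      Kq C₁ CL q * INF.nY q d z * bq q (eq' n C₁ CL ε q) (INF.nY q d z) ^ j := by
    intro j hj
    have := mul_le_mul_of_nonneg_left (gm_slot hσ hR1 M1 h sT (π := Prod.snd) contDiff_snd hL1
      ly sr hρ hj) (by linarith : 0 ≤ C₁)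
    refine this.trans (le_of_eq ?_)
    show C₁ * (22 * CL q.σ ^ 3 * (INF.nY q d z * bq q (eq' n C₁ CL ε q) (INF.nY q d z) ^ j)) = _
    unfold Kq
    ring
  have K0 := nc.K0
  have P0' := nc.P0
  obtain ⟨z1, z2⟩ := Z_le (hs d h) (k := .iS) (z := z) (b := 300 / (q.κ₁ * q.R))
    fun v => inf_b hI h (Or.inr (Or.inr rfl)) v
  have eP : 7 * BF * (300 / (q.κ₁ * q.R)) = P0 q / q.R := by
    have hκ := hI.κ0
    unfold P0
    field_simp
  rw [eP] at z1 z2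
  have ch1 : |d.ch q .iS z| ≤ 1 := by
    have x0 : 0 ≤ d.ch q .iS z := H867.EP.ch_nn Fl_pair _ _ _
    have x1 : d.ch q .iS z ≤ 1 := H867.EP.ch_le Fl_pair _ _ _
    rwa [abs_of_nonneg x0]
  have bq0 : ∀ m, 0 ≤ bq q (eq' n C₁ CL ε q) m := fun m => by
    unfold bq
    have := inv_pos.2 hR
    positivity
  have nX0 : 0 ≤ INF.nX q d z := by linarith
  have nY0 : 0 ≤ INF.nY q d z := by linarith
  have bX := bq0 (INF.nX q d z)
  have bY := bq0 (INF.nY q d z)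
  have cx := cw_le (σ₀ := d.sx) (W := d.W q) (χ := d.ch q .iS) (lam := lmS q d) (z := z)
    (w₁ := Kq C₁ CL q * INF.nX q d z)
    (w₂ := Kq C₁ CL q * INF.nX q d z * bq q (eq' n C₁ CL ε q) (INF.nX q d z))
    (w₃ := Kq C₁ CL q * INF.nX q d z * bq q (eq' n C₁ CL ε q) (INF.nX q d z) ^ 2)
    (P := P0 q / q.R) (yx.bS co hn) (yx.bD co hn) (fun i => yx.p.η i z)
    (fun i => (S.d1 i).trans (by simpa using gx 0 (by norm_num)))
    (fun i j => (S.d2 i j).trans (by simpa using gx 1 (by norm_num)))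
    (fun i => (S.l1 i).trans (gx 2 (by norm_num))) (by positivity) (by positivity)
    (by positivity) (by positivity) z1 ch1 (by unfold lmS; positivity)
  have cy := cw_le (σ₀ := d.sy) (W := d.W q) (χ := d.ch q .iS) (lam := muS q d) (z := z)
    (w₁ := Kq C₁ CL q * INF.nY q d z)
    (w₂ := Kq C₁ CL q * INF.nY q d z * bq q (eq' n C₁ CL ε q) (INF.nY q d z))
    (w₃ := Kq C₁ CL q * INF.nY q d z * bq q (eq' n C₁ CL ε q) (INF.nY q d z) ^ 2)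
    (P := P0 q / q.R) (yy.bS co hn) (yy.bD co hn) (fun i => yy.p.η i z)
    (fun i => (S.d1' i).trans (by simpa using gy 0 (by norm_num)))
    (fun i j => (S.d2' i j).trans (by simpa using gy 1 (by norm_num)))
    (fun i => (S.l4 i).trans (gy 2 (by norm_num))) (by positivity) (by positivity)
    (by positivity) (by positivity) z2 ch1 (by unfold muS; positivity)
  have kx := num_cost (b := bq q (eq' n C₁ CL ε q) (INF.nX q d z)) nc hσ hR1 M1 n1 rfl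
  have ky := num_cost (b := bq q (eq' n C₁ CL ε q) (INF.nY q d z)) nc hσ hR1 M1 n2 rfl
  have ε0 := nc.ε0
  have key : ∀ {m k F : ℝ}, 0 ≤ m → m ≤ k → 0 ≤ F →
      ε q * ((q.σ / q.R) ^ 2 * m ^ 2) ≤ ε q * (q.σ / q.R * (k * F + q.σ / q.R * k ^ 2)) := by
    intro m k F hm hmk hF
    refine mul_le_mul_of_nonneg_left ?_ ε0.le
    have x1 : m ^ 2 ≤ k ^ 2 := pow_le_pow_left₀ hm hmk 2
    have x2 := mul_le_mul_of_nonneg_left x1 (sq_nonneg (q.σ / q.R))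
    have x3 : 0 ≤ q.σ / q.R * (k * F) := mul_nonneg hs'.le (mul_nonneg (hm.trans hmk) hF)
    have x4 : q.σ / q.R * (k * F + q.σ / q.R * k ^ 2) =
        q.σ / q.R * (k * F) + (q.σ / q.R) ^ 2 * k ^ 2 := by ring
    rw [x4]
    linarith
  have e' : coz L e q d .iS = CiS (d.ch q .iS) q d := by
    show L.FC .iS q d = _
    rw [hC]
  rw [e']
  refine ⟨le_rfl, ?_, ?_, le_rfl, ?_, ?_, le_rfl, le_rfl⟩
  · exact mul_nonneg ε0.le (mul_nonneg hs'.le (nX0.trans a1))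
  · exact mul_nonneg ε0.le (mul_nonneg hs'.le (nY0.trans b1))
  · exact (cx.trans kx).trans (key nX0 a1 F1)
  · exact (cy.trans ky).trans (key nY0 b1 F2)

end Vale.Agent.P088.R2.H380.E
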