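import Vale.Agent.P088.R2.H380.E.CwS

/-!
# P088, stage 3, EST': the sizes of the weight at the separable points
-/

open MeasureTheory Set Filter
open scoped ContDiff Topology Matrix

noncomputable section

namespace Vale.Agent.P088.R2.H380.E

open Vale.Agent.P088.R2.H961.GW Vale.Agent.P088.R2.H960.W Vale.Agent.P088.R2.H644
open Vale.Agent.P088.R2.H551.E Vale.Agent.P088.LR Vale.Agent.P088.HY Vale.Agent.P088.R2.H475
open Vale.Agent.P088.R2.H168.INF Vale.Agent.P088.R2.H269.INF Vale.Agent.P088.R2.H31.EP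
open Vale.Agent.P088.R2.H380.INF
open Vale.Agent.P088.R2.H404.INF (InfC evInf lvG l₀_eq gl_le DeepOk closed_deep deep_supp W_ret)

variable {n : ℕ} {q : Cst} {d : Pk n} {C₁ : ℝ} {CL : ℝ → ℝ}

/-- The derivatives of `T`. -/
theorem it_TT (h : PkOk q d) (t : ℝ) : iteratedDeriv 1 (TT q d) t = T1 q d t ∧
    ∀ i, iteratedDeriv (i + 2) (TT q d) t = iteratedDeriv (i + 2) d.Θ t := by
  have e1 : deriv (TT q d) = T1 q d := funext fun t => (hd_T h t).deriv
  have e2 : deriv (T1 q d) = iteratedDeriv 2 d.Θ := funext fun t => (hd_T1 h t).deriv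
  refine ⟨by rw [iteratedDeriv_one, e1], fun i => ?_⟩
  have a1 : iteratedDeriv (i + 2) (TT q d) = iteratedDeriv i (deriv (deriv (TT q d))) := by
    rw [show i + 2 = (i + 1) + 1 from rfl, iteratedDeriv_succ', iteratedDeriv_succ']
  have a2 : iteratedDeriv (i + 2) d.Θ = iteratedDeriv i (deriv (deriv d.Θ)) := by
    rw [show i + 2 = (i + 1) + 1 from rfl, iteratedDeriv_succ', iteratedDeriv_succ']
  have a3 : iteratedDeriv 2 d.Θ = deriv (deriv d.Θ) := by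
    rw [iteratedDeriv_succ, iteratedDeriv_one]
  rw [a1, a2, e1, e2, a3]

/-- The size parameter. -/
def bq (q : Cst) (e m : ℝ) : ℝ := √(e * m / q.R) + q.R⁻¹

/-- **The sizes of `T ∘ l`.** -/
theorem TL_sz (hσ : 0 < q.σ) (hR : 0 < q.R) (hM : 1 ≤ q.M₀) (h : PkOk q d) {e : ℝ}
    (s : ScT q e) {z : VV n} {π : VV n → V n} {A : ℝ} (hπ : ContDiff ℝ ∞ π) (hA : 1 ≤ A)
    (hl : ∀ i, 1 ≤ i → i ≤ 3 → ‖iteratedFDeriv ℝ i (fun z => d.l (π z)) z‖ ≤ A * q.R⁻¹ ^ (i - 1))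
    {i : ℕ} (hi : i ≤ 2) :
    ‖iteratedFDeriv ℝ (i + 1) (fun z => TT q d (d.l (π z))) z‖ ≤
      6 * A ^ 3 * T1 q d (d.l (π z)) * bq q e (T1 q d (d.l (π z))) ^ i := by
  set m := T1 q d (d.l (π z)) with hm
  have m0 : q.M₀ ≤ m := by
    rw [hm]
    unfold T1
    linarith [h.Θd0 hR (d.l (π z))]
  have m1 : 0 ≤ m := by linarith
  have u0 : 0 < q.R⁻¹ := inv_pos.2 hR
  set b := bq q e m with hb
  have sb : √(e * m / q.R) ≤ b := by
    rw [hb]
    unfold bq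
    linarith
  have s0 := Real.sqrt_nonneg (e * m / q.R)
  have ub : q.R⁻¹ ≤ b := by
    rw [hb]
    unfold bq
    linarith
  have b0 : 0 < b := u0.trans_le ub
  have A0 : 0 ≤ A := by linarith
  obtain ⟨t1, t2⟩ := it_TT h (d.l (π z))
  have g : ∀ i, 1 ≤ i → i ≤ 3 → |iteratedDeriv i (TT q d) (d.l (π z))| ≤ m * b ^ (i - 1) := by
    intro i h1 h3
    obtain rfl | rfl | rfl : i = 1 ∨ i = 2 ∨ i = 3 := by omega
    · rw [t1, ← hm, abs_of_nonneg m1]
      simp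
    · rw [t2 0]
      have h4 := th_sz h hσ s (m := m) (t := d.l (π z)) le_rfl (j := 1) le_rfl (by norm_num)
      rw [sz1] at h4
      refine h4.trans ?_
      rw [pow_one]
      exact mul_le_mul_of_nonneg_left sb m1
    · rw [t2 1]
      have h4 := th_sz h hσ s (m := m) (t := d.l (π z)) le_rfl (j := 2) (by norm_num) (by norm_num)
      rw [sz2] at h4
      refine h4.trans ?_
      exact mul_le_mul_of_nonneg_left (pow_le_pow_left₀ s0 sb 2) m1
  have k := comp_sz (G := TT q d) (L := fun z => d.l (π z)) (sm_T h) (h.lev.sm.comp hπ) m1 b0 hA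
    u0.le ub g hl (i := i + 1) (by omega) (by omega)
  refine k.trans ?_
  rw [Nat.add_sub_cancel]
  have f1 : ((i + 1).factorial : ℝ) ≤ 6 := by
    have : (i + 1).factorial ≤ (3).factorial := Nat.factorial_le (by omega)
    have e : (3).factorial = 6 := rfl
    rw [e] at this
    exact_mod_cast this
  have f2 : A ^ (i + 1) ≤ A ^ 3 := pow_le_pow_right₀ hA (by omega)
  gcongr

/-- The bound of all the quantities. -/
def Kq (C₁ : ℝ) (CL : ℝ → ℝ) (q : Cst) : ℝ := 22 * C₁ * CL q.σ ^ 3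

/-- The graded size of the weight in one slot. -/
theorem gm_slot (hσ : 0 < q.σ) (hR1 : 1 ≤ q.R) (hM : 1 ≤ q.M₀) (h : PkOk q d) {e : ℝ}
    (s : ScT q e) {z : VV n} {π : VV n → V n} {A : ℝ} (hπ : ContDiff ℝ ∞ π) (hA : 1 ≤ A)
    (hl : ∀ i, 1 ≤ i → i ≤ 3 → ‖iteratedFDeriv ℝ i (fun z => d.l (π z)) z‖ ≤ A * q.R⁻¹ ^ (i - 1))
    {ρ : VV n → ℝ} (sρ : ContDiff ℝ ∞ ρ)
    (hρ : ∀ j, 1 ≤ j → j ≤ 4 → ‖iteratedFDeriv ℝ j ρ z‖ ≤ q.R⁻¹ ^ 8) {j : ℕ} (hj : j ≤ 2) :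
    gm q.R (fun z => ρ z + TT q d (d.l (π z))) j z ≤
      22 * A ^ 3 * (T1 q d (d.l (π z)) * bq q e (T1 q d (d.l (π z))) ^ j) := by
  have hR : 0 < q.R := by linarith
  have u0 : 0 < q.R⁻¹ := inv_pos.2 hR
  have u1 : q.R⁻¹ ≤ 1 := inv_le_one_of_one_le₀ hR1
  set m := T1 q d (d.l (π z)) with hm
  have m0 : 1 ≤ m := by
    rw [hm]
    unfold T1
    linarith [h.Θd0 hR (d.l (π z))]
  set b := bq q e m with hb
  have ub : q.R⁻¹ ≤ b := by
    rw [hb]
    unfold bq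
    linarith [Real.sqrt_nonneg (e * m / q.R)]
  have b0 : 0 ≤ b := u0.le.trans ub
  have j2 : (j : ℝ) ≤ 2 := by exact_mod_cast hj
  have g1 := gm_sz hR (f := fun z => TT q d (d.l (π z))) (z := z) (M := 6 * A ^ 3 * m) (b := b)
    (k := 2) (by positivity) ub (fun i hi => TL_sz hσ hR hM h s hπ hA hl hi) hj
  have g2 := gm_le hR1 (f := ρ) (z := z) (k := 3) (δ := q.R⁻¹ ^ 8) (by positivity)
    (fun i h1 h2 => hρ i h1 h2) (j := j) (by omega)
  have g3 := gm_add hR sρ (g := fun z => TT q d (d.l (π z)))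
    ((sm_T h).comp (h.lev.sm.comp hπ)) j z
  have A3 : 1 ≤ A ^ 3 := one_le_pow₀ hA
  have k1 : q.R⁻¹ ^ 8 ≤ b ^ j := (pow_le_pow_of_le_one u0.le u1 (by omega)).trans
    (pow_le_pow_left₀ u0.le ub j)
  have k2 : 0 ≤ b ^ j := by positivity
  have k3 : b ^ j ≤ m * b ^ j := le_mul_of_one_le_left k2 m0
  have k4 : 0 ≤ m * b ^ j := by positivity
  have k5 : m * b ^ j ≤ A ^ 3 * (m * b ^ j) := le_mul_of_one_le_left k4 A3
  have k6 : ((j : ℝ) + 1) * q.R⁻¹ ^ 8 ≤ 3 * b ^ j :=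
    mul_le_mul (by linarith) k1 (by positivity) (by norm_num)
  have k7 : ((j : ℝ) + 1) * (6 * A ^ 3 * m * b ^ j) ≤ 3 * (6 * A ^ 3 * m * b ^ j) :=
    mul_le_mul_of_nonneg_right (by linarith) (by positivity)
  nlinarith

/-- All slot quantities of the weight. -/
theorem sb5S (c : Cns n C₁ CL) (hR1 : 1 ≤ q.R) (he1 : q.ε ≤ 1) (hε : n * q.ε ≤ 1 / 2)
    (h : PkOk q d) (z : VV n) :
    Sb5 d.sx d.sy (d.W q) C₁ (fun j => gm q.R (rhS q d) j z)
      (fun j => gm q.R (fun z => rhS q d z + TT q d (d.l z.1)) j z)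
      (fun j => gm q.R (fun z => rhS q d z + TT q d (d.l z.2)) j z) z := by
  have hR : 0 < q.R := by linarith
  have m1 := mt₁ le_rfl hR h.rg
  have m2 := mt₂ le_rfl hR h.rg
  have sr := rhS_sm h hε
  have b := (c.sb q.R d.s₁ d.s₂ (rhS q d) (bs_of h hR1 he1 sr) z).1
  have bx := (c.sb q.R d.s₁ d.s₂ (fun z => rhS q d z + TT q d (d.l z.1)) (bs_of h hR1 he1
    (sr.add (T_x h))) z).1
  have bY := (c.sb q.R d.s₁ d.s₂ (fun z => rhS q d z + TT q d (d.l z.2)) (bs_of h hR1 he1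
    (sr.add (T_y h))) z).1
  have S := sb5_pw (ok_x m1 m2) (ok_y m1 m2)
    (cm1 h.rg.sm₁ h.rg.sm₂ (fun x i j => ((h.rg.sy₁ x).apply i j).symm)
      (fun x i j => ((h.rg.sy₂ x).apply i j).symm)) sr.contDiffOn (T_x h).contDiffOn
    (T_y h).contDiffOn
    (fun w _ k => Dy_fst (g := fun x => TT q d (d.l x))
        (((sm_T h).comp h.lev.sm).differentiable (by simp) w.1) k)
    (fun w _ k => Dx_snd (g := fun x => TT q d (d.l x))
        (((sm_T h).comp h.lev.sm).differentiable (by simp) w.2) k) (mem_univ z) b bx bY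
  rw [W_s] at S
  exact S

end Vale.Agent.P088.R2.H380.E
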